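import Claimed.Agent.R286.Defs.Jet

/-!
# Row 286 (S0533), LL Section 2, unit T2 : THE JET ALGEBRA AS A COMMUTATIVE RING      (owner helper239; HEAD of LL 02 = helper93, ADV helper73)

Vocabulary free.  At a FIXED final topology the symbolic series (A5)-(A9) of LL 02 are SET FUNCTIONS on the finite set of pair slots:
`Ψ A` = scalar moment of the pairs in `A`, `N A` = the same with `τ_i τ_j`, and the product of two series is the SUBSET CONVOLUTION
`(f * g) A = ∑_{B ⊆ A} f B * g (A \ B)`  ("multiply coefficients on their respective restricted topologies").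

* `Jt α R`            : set functions `Finset α → R`, a commutative `R`-algebra for the subset convolution;
* `Jt.inv f`          : the inverse of `f` with `f ∅ = 1`  (`Quot = N * inv Ψ`);
* `Jt.log f`          : the logarithm (`Kap = log Ψ` = joint cumulants at the fixed topology);
* `Jt.res p`, `Jt.cut a`, `Jt.shift a` : restriction to the slots with `p` (a ring homomorphism), removal of the slot `a`, the twisted derivation
                        `shift a f A = f (insert a A)`;  moment-cumulant recursion, additivity of `log`, vanishing of mixed cumulants;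
* `Jt.tw x`           : multiplication by the character `∏_{l ∈ A} x l` (the insertions `J_l`), a ring homomorphism;  `Jt.chr x`, `Jt.sgl x`;
* `Jt.powPoly f A`    : `(f ^ j) A` is a polynomial in `j`, of degree `≤ |A|`, with linear coefficient `log f A`  (LL Lemma size-increment);
* derivatives in a parameter: `D log Ψ = DΨ * inv Ψ`  (LL (A9)).
-/

set_option autoImplicit false

namespace Claimed.Agent.R286

open Finset

/-- set functions on the slots `α` -/
structure Jt (α R : Type) where
  /-- the coefficients -/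
  c : Finset α → R

namespace Jt

variable {α R : Type}

instance instCoeFun : CoeFun (Jt α R) (fun _ => Finset α → R) := ⟨Jt.c⟩

@[ext] theorem ext {f g : Jt α R} (h : ∀ A, f A = g A) : f = g := by
  cases f; cases g; congr; exact funext h

@[simp] theorem mk_apply (F : Finset α → R) (A : Finset α) : (Jt.mk F) A = F A := rfl

/-- the underlying function -/
def equivFun : Jt α R ≃ (Finset α → R) := ⟨Jt.c, Jt.mk, fun _ => rfl, fun _ => rfl⟩

instance instAddCommGroup [AddCommGroup R] : AddCommGroup (Jt α R) := equivFun.addCommGroup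

instance instModule [CommRing R] : Module R (Jt α R) := equivFun.module R

section basic
variable [CommRing R]

@[simp] theorem zero_apply (A : Finset α) : (0 : Jt α R) A = 0 := rfl
@[simp] theorem add_apply (f g : Jt α R) (A : Finset α) : (f + g) A = f A + g A := rfl
@[simp] theorem sub_apply (f g : Jt α R) (A : Finset α) : (f - g) A = f A - g A := rfl
@[simp] theorem neg_apply (f : Jt α R) (A : Finset α) : (-f) A = -f A := rfl
@[simp] theorem smul_apply (r : R) (f : Jt α R) (A : Finset α) : (r • f) A = r * f A := rfl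

theorem sum_apply {κ : Type} (s : Finset κ) (F : κ → Jt α R) (A : Finset α) : (∑ k ∈ s, F k) A = ∑ k ∈ s, F k A := by
  classical
  induction s using Finset.induction_on with
  | empty => simp
  | insert a s ha ih => rw [Finset.sum_insert ha, Finset.sum_insert ha, add_apply, ih]

end basic

variable [DecidableEq α] [CommRing R]

instance instMul : Mul (Jt α R) := ⟨fun f g => ⟨fun A => ∑ B ∈ A.powerset, f B * g (A \ B)⟩⟩
instance instOne : One (Jt α R) := ⟨⟨fun A => if A = ∅ then 1 else 0⟩⟩

theorem mul_apply (f g : Jt α R) (A : Finset α) : (f * g) A = ∑ B ∈ A.powerset, f B * g (A \ B) := rfl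
theorem one_apply (A : Finset α) : (1 : Jt α R) A = if A = ∅ then 1 else 0 := rfl
@[simp] theorem one_apply_empty : (1 : Jt α R) ∅ = 1 := by simp [one_apply]
theorem one_apply_ne {A : Finset α} (h : A ≠ ∅) : (1 : Jt α R) A = 0 := by simp [one_apply, h]

protected theorem mul_comm' (f g : Jt α R) : f * g = g * f := by
  ext A
  simp only [mul_apply]
  refine Finset.sum_nbij' (fun B => A \ B) (fun B => A \ B) ?_ ?_ ?_ ?_ ?_
  · intro B _; exact mem_powerset.2 sdiff_subset
  · intro B _; exact mem_powerset.2 sdiff_subset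
  · intro B hB; exact Finset.sdiff_sdiff_eq_self (mem_powerset.1 hB)
  · intro B hB; exact Finset.sdiff_sdiff_eq_self (mem_powerset.1 hB)
  · intro B hB; rw [Finset.sdiff_sdiff_eq_self (mem_powerset.1 hB), mul_comm]

protected theorem mul_assoc' (f g h : Jt α R) : f * g * h = f * (g * h) := by
  ext A
  simp only [mul_apply, Finset.sum_mul, Finset.mul_sum]
  rw [Finset.sum_sigma', Finset.sum_sigma']
  refine Finset.sum_nbij' (fun x => ⟨x.2, x.1 \ x.2⟩) (fun x => ⟨x.1 ∪ x.2, x.1⟩) ?_ ?_ ?_ ?_ ?_
  · rintro ⟨B, C⟩ hx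
    simp only [mem_sigma, mem_powerset] at hx ⊢
    exact ⟨hx.2.trans hx.1, sdiff_subset_sdiff hx.1 le_rfl⟩
  · rintro ⟨C, D⟩ hx
    simp only [mem_sigma, mem_powerset] at hx ⊢
    exact ⟨union_subset hx.1 (hx.2.trans sdiff_subset), subset_union_left⟩
  · rintro ⟨B, C⟩ hx
    simp only [mem_sigma, mem_powerset] at hx
    simp only [union_sdiff_of_subset hx.2]
  · rintro ⟨C, D⟩ hx
    simp only [mem_sigma, mem_powerset] at hx
    have hd : Disjoint C D := (disjoint_sdiff.mono_right hx.2)
    simp only [union_sdiff_cancel_left hd]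
  · rintro ⟨B, C⟩ hx
    simp only [mem_sigma, mem_powerset] at hx
    have : (A \ C) \ (B \ C) = A \ B := by
      rw [sdiff_sdiff_left, sup_eq_union, union_sdiff_of_subset hx.2]
    simp only [this, mul_assoc]

protected theorem one_mul' (f : Jt α R) : 1 * f = f := by
  ext A
  rw [mul_apply, Finset.sum_eq_single ∅]
  · simp
  · intro B _ hB; rw [one_apply_ne hB, zero_mul]
  · intro h; exact absurd (empty_mem_powerset A) h

instance instCommRing : CommRing (Jt α R) :=
  { Jt.instAddCommGroup, Jt.instMul, Jt.instOne with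
    mul_assoc := Jt.mul_assoc'
    one_mul := Jt.one_mul'
    mul_one := fun f => by rw [Jt.mul_comm', Jt.one_mul']
    mul_comm := Jt.mul_comm'
    left_distrib := fun f g h => by
      ext A; simp only [mul_apply, add_apply, mul_add, Finset.sum_add_distrib]
    right_distrib := fun f g h => by
      ext A; simp only [mul_apply, add_apply, add_mul, Finset.sum_add_distrib]
    zero_mul := fun f => by ext A; simp [mul_apply]
    mul_zero := fun f => by ext A; simp [mul_apply] }

instance instAlgebra : Algebra R (Jt α R) :=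
  Algebra.ofModule
    (fun r f g => by ext A; simp only [mul_apply, smul_apply, Finset.mul_sum, mul_assoc])
    (fun r f g => by ext A; simp only [mul_apply, smul_apply, Finset.mul_sum]; exact Finset.sum_congr rfl fun B _ => by ring)


/-! ### locality, the augmentation ideal -/

@[simp] theorem mul_apply_empty (f g : Jt α R) : (f * g) ∅ = f ∅ * g ∅ := by
  simp [mul_apply]

/-- the value of a product at `A` sees the factors on the subsets of `A` only -/
theorem mul_congr_at {f f' g g' : Jt α R} {A : Finset α} (hf : ∀ B, B ⊆ A → f B = f' B) (hg : ∀ B, B ⊆ A → g B = g' B) :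
    (f * g) A = (f' * g') A := by
  rw [mul_apply, mul_apply]
  exact Finset.sum_congr rfl fun B hB => by rw [hf B (mem_powerset.1 hB), hg _ sdiff_subset]

theorem pow_apply_empty (f : Jt α R) (k : ℕ) : (f ^ k) ∅ = f ∅ ^ k := by
  induction k with
  | zero => simp
  | succ k ih => rw [pow_succ, mul_apply_empty, ih, pow_succ]

/-- powers of an element of the augmentation ideal vanish on small sets -/
theorem pow_apply_of_card_lt {n : Jt α R} (h0 : n ∅ = 0) : ∀ (k : ℕ) (A : Finset α), A.card < k → (n ^ k) A = 0 := by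
  intro k
  induction k with
  | zero => intro A h; exact absurd h (Nat.not_lt_zero _)
  | succ k ih =>
    intro A hA
    rw [pow_succ, mul_apply]
    refine Finset.sum_eq_zero fun B hB => ?_
    have hBA := mem_powerset.1 hB
    by_cases hE : B = A
    · rw [hE, Finset.sdiff_self, h0, mul_zero]
    · have : B.card < A.card := card_lt_card (hBA.ssubset_of_ne hE)
      rw [ih B (by omega), zero_mul]

/-! ### power series in an element of the augmentation ideal -/

/-- `∑_k c k * n ^ k` (locally finite) -/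
def ser (c : ℕ → R) (n : Jt α R) : Jt α R := ⟨fun A => ∑ k ∈ range (A.card + 1), c k * (n ^ k) A⟩

theorem ser_apply (c : ℕ → R) (n : Jt α R) (A : Finset α) : ser c n A = ∑ k ∈ range (A.card + 1), c k * (n ^ k) A := rfl

theorem ser_apply_of_lt (c : ℕ → R) {n : Jt α R} (h0 : n ∅ = 0) {A : Finset α} {N : ℕ} (hN : A.card < N) :
    ser c n A = (∑ k ∈ range N, c k • n ^ k) A := by
  rw [ser_apply, sum_apply]
  simp only [smul_apply]
  refine Finset.sum_subset (fun k hk => ?_) fun k _ hk => ?_
  · simp only [mem_range] at hk ⊢; omega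
  · rw [pow_apply_of_card_lt h0 k A (by simp only [mem_range] at hk; omega), mul_zero]

@[simp] theorem ser_apply_empty (c : ℕ → R) (n : Jt α R) : ser c n ∅ = c 0 := by
  simp [ser_apply]

/-! ### the inverse -/

/-- the symbol without its constant term -/
def aug (f : Jt α R) : Jt α R := ⟨fun A => if A = ∅ then 0 else f A⟩

theorem aug_apply (f : Jt α R) (A : Finset α) : aug f A = if A = ∅ then 0 else f A := rfl
@[simp] theorem aug_apply_empty (f : Jt α R) : aug f ∅ = 0 := by simp [aug_apply]
theorem aug_apply_ne (f : Jt α R) {A : Finset α} (h : A ≠ ∅) : aug f A = f A := by simp [aug_apply, h]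

theorem aug_eq_sub_one {f : Jt α R} (h : f ∅ = 1) : aug f = f - 1 := by
  ext A
  by_cases hA : A = ∅
  · subst hA; simp [h]
  · simp [aug_apply_ne f hA, one_apply_ne hA]

theorem aug_eq_self {f : Jt α R} (h : f ∅ = 0) : aug f = f := by
  ext A
  by_cases hA : A = ∅
  · subst hA; simp [h]
  · simp [aug_apply_ne f hA]

@[simp] theorem aug_aug (f : Jt α R) : aug (aug f) = aug f := aug_eq_self (aug_apply_empty f)

theorem aug_add (f g : Jt α R) : aug (f + g) = aug f + aug g := by
  ext A; simp only [aug_apply, add_apply]; split_ifs <;> simp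

theorem aug_smul (r : R) (f : Jt α R) : aug (r • f) = r • aug f := by
  ext A; simp only [aug_apply, smul_apply]; split_ifs <;> simp

/-- inverse of `f` with `f ∅ = 1` -/
def inv (f : Jt α R) : Jt α R := ser (fun k => (-1) ^ k) (aug f)

@[simp] theorem inv_apply_empty (f : Jt α R) : inv f ∅ = 1 := by simp [inv]

theorem inv_apply_of_lt {f : Jt α R} (h : f ∅ = 1) {A : Finset α} {N : ℕ} (hN : A.card < N) :
    inv f A = (∑ k ∈ range N, (1 - f) ^ k) A := by
  rw [inv, ser_apply_of_lt _ (aug_apply_empty f) hN, aug_eq_sub_one h]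
  have : ∀ k : ℕ, ((-1 : R) ^ k) • (f - 1) ^ k = (1 - f) ^ k := fun k => by
    rw [← neg_sub f 1, neg_pow (f - 1) k, Algebra.smul_def, map_pow, map_neg, map_one]
  simp only [this]

theorem mul_inv {f : Jt α R} (h : f ∅ = 1) : f * inv f = 1 := by
  ext A
  have h1 : (f * inv f) A = (f * ∑ k ∈ range (A.card + 1), (1 - f) ^ k) A :=
    mul_congr_at (fun _ _ => rfl) fun B hB => inv_apply_of_lt h (Nat.lt_succ_of_le (card_le_card hB))
  have h2 : f * ∑ k ∈ range (A.card + 1), (1 - f) ^ k = 1 - (1 - f) ^ (A.card + 1) := by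
    have := mul_neg_geom_sum (1 - f) (A.card + 1)
    rwa [sub_sub_cancel] at this
  rw [h1, h2, sub_apply, pow_apply_of_card_lt (by simp [h]) _ A (Nat.lt_succ_self _), sub_zero]

theorem inv_mul {f : Jt α R} (h : f ∅ = 1) : inv f * f = 1 := by rw [mul_comm, mul_inv h]

/-- uniqueness of the inverse -/
theorem eq_inv_of_mul_eq_one {f g : Jt α R} (h : f ∅ = 1) (hg : f * g = 1) : g = inv f := by
  calc g = (inv f * f) * g := by rw [inv_mul h, one_mul]
    _ = inv f := by rw [mul_assoc, hg, mul_one]

theorem inv_mul_distrib {f g : Jt α R} (hf : f ∅ = 1) (hg : g ∅ = 1) : inv (f * g) = inv f * inv g := by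
  symm
  refine eq_inv_of_mul_eq_one (by simp [hf, hg]) ?_
  calc f * g * (inv f * inv g) = (f * inv f) * (g * inv g) := by ring
    _ = 1 := by rw [mul_inv hf, mul_inv hg, one_mul]

theorem inv_one : inv (1 : Jt α R) = 1 := (eq_inv_of_mul_eq_one (by simp) (one_mul 1)).symm

/-- the quotient identity `(N * inv Ψ) * Ψ = N`, at a set: `∑_{B ⊆ A} Quot B * Ψ (A \ B) = N A` -/
theorem quot_mul (N : Jt α R) {Ψ : Jt α R} (h : Ψ ∅ = 1) : N * inv Ψ * Ψ = N := by
  rw [mul_assoc, inv_mul h, mul_one]

/-! ### ring homomorphisms: restriction, twist, relabelling -/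

/-- restriction to the slots with the property `p` -/
def res (p : α → Prop) [DecidablePred p] : Jt α R →+* Jt α R where
  toFun f := ⟨fun A => if ∀ a ∈ A, p a then f A else 0⟩
  map_one' := by
    ext A
    by_cases hA : A = ∅
    · subst hA; simp
    · simp [one_apply_ne hA]
  map_mul' f g := by
    ext A
    simp only [mul_apply]
    by_cases h : ∀ a ∈ A, p a
    · rw [if_pos h]
      refine Finset.sum_congr rfl fun B hB => ?_
      rw [if_pos (fun a ha => h a (mem_powerset.1 hB ha)), if_pos (fun a ha => h a (sdiff_subset ha))]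
    · rw [if_neg h]
      symm
      refine Finset.sum_eq_zero fun B _ => ?_
      by_cases h1 : ∀ a ∈ B, p a
      · have h2 : ¬ ∀ a ∈ A \ B, p a := fun h2 => h fun a ha =>
          if haB : a ∈ B then h1 a haB else h2 a (mem_sdiff.2 ⟨ha, haB⟩)
        rw [if_neg h2, mul_zero]
      · rw [if_neg h1, zero_mul]
  map_zero' := by ext A; simp
  map_add' f g := by
    ext A
    simp only [add_apply]
    split_ifs <;> simp

theorem res_apply (p : α → Prop) [DecidablePred p] (f : Jt α R) (A : Finset α) :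
    res p f A = if ∀ a ∈ A, p a then f A else 0 := rfl

/-- multiplication by the character `∏_{l ∈ A} x l` -/
def tw (x : α → R) : Jt α R →+* Jt α R where
  toFun f := ⟨fun A => (∏ l ∈ A, x l) * f A⟩
  map_one' := by
    ext A
    by_cases hA : A = ∅
    · subst hA; simp
    · simp [one_apply_ne hA]
  map_mul' f g := by
    ext A
    simp only [mul_apply, Finset.mul_sum]
    refine Finset.sum_congr rfl fun B hB => ?_
    rw [← Finset.prod_sdiff (mem_powerset.1 hB)]
    ring
  map_zero' := by ext A; simp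
  map_add' f g := by ext A; simp [mul_add]

theorem tw_apply (x : α → R) (f : Jt α R) (A : Finset α) : tw x f A = (∏ l ∈ A, x l) * f A := rfl

/-- relabelling of the slots along an embedding -/
def comap {β : Type} [DecidableEq β] (e : β ↪ α) : Jt α R →+* Jt β R where
  toFun f := ⟨fun A => f (A.map e)⟩
  map_one' := by
    ext A
    simp [one_apply]
  map_mul' f g := by
    ext A
    simp only [mul_apply]
    symm
    refine Finset.sum_bij (fun B _ => B.map e) ?_ ?_ ?_ ?_
    · intro B hB; exact mem_powerset.2 (map_subset_map.2 (mem_powerset.1 hB))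
    · intro B _ B' _ h; exact map_injective e h
    · intro B hB
      obtain ⟨u, hu, rfl⟩ := subset_map_iff.1 (mem_powerset.1 hB)
      exact ⟨u, mem_powerset.2 hu, rfl⟩
    · intro B _
      rw [Finset.map_sdiff]
  map_zero' := by ext A; simp
  map_add' f g := by ext A; simp

theorem comap_apply {β : Type} [DecidableEq β] (e : β ↪ α) (f : Jt α R) (A : Finset β) : comap e f A = f (A.map e) := rfl

/-- a ring homomorphism of the form `(φ f) A = μ A * f (ρ A)`, `|ρ A| = |A|`, commutes with power series -/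
theorem map_ser {β : Type} [DecidableEq β] (φ : Jt α R →+* Jt β R) (μ : Finset β → R) (ρ : Finset β → Finset α)
    (hφ : ∀ f A, φ f A = μ A * f (ρ A)) (hρ : ∀ A, (ρ A).card = A.card) (c : ℕ → R) (n : Jt α R) :
    φ (ser c n) = ser c (φ n) := by
  ext A
  rw [hφ, ser_apply, ser_apply, hρ, Finset.mul_sum]
  refine Finset.sum_congr rfl fun k _ => ?_
  rw [← map_pow, hφ]
  ring

theorem res_ser (p : α → Prop) [DecidablePred p] (c : ℕ → R) (n : Jt α R) : res p (ser c n) = ser c (res p n) :=
  map_ser (res p) (fun A => if ∀ a ∈ A, p a then 1 else 0) id (fun f A => by rw [res_apply]; split_ifs <;> simp) (fun _ => rfl) c n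

theorem tw_ser (x : α → R) (c : ℕ → R) (n : Jt α R) : tw x (ser c n) = ser c (tw x n) :=
  map_ser (tw x) (fun A => ∏ l ∈ A, x l) id (fun _ _ => rfl) (fun _ => rfl) c n

theorem comap_ser {β : Type} [DecidableEq β] (e : β ↪ α) (c : ℕ → R) (n : Jt α R) : comap e (ser c n) = ser c (comap e n) :=
  map_ser (comap e) (fun _ => 1) (fun A => A.map e) (fun f A => by rw [comap_apply, one_mul]) (fun A => card_map e) c n

theorem res_aug (p : α → Prop) [DecidablePred p] (f : Jt α R) : res p (aug f) = aug (res p f) := by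
  ext A; simp only [res_apply, aug_apply]; split_ifs <;> rfl

theorem tw_aug (x : α → R) (f : Jt α R) : tw x (aug f) = aug (tw x f) := by
  ext A; simp only [tw_apply, aug_apply]; split_ifs <;> simp

theorem comap_aug {β : Type} [DecidableEq β] (e : β ↪ α) (f : Jt α R) : comap e (aug f) = aug (comap e f) := by
  ext A; simp only [comap_apply, aug_apply, map_eq_empty]

theorem res_inv (p : α → Prop) [DecidablePred p] (f : Jt α R) : res p (inv f) = inv (res p f) := by
  rw [inv, res_ser, res_aug, inv]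

theorem tw_inv (x : α → R) (f : Jt α R) : tw x (inv f) = inv (tw x f) := by
  rw [inv, tw_ser, tw_aug, inv]

theorem comap_inv {β : Type} [DecidableEq β] (e : β ↪ α) (f : Jt α R) : comap e (inv f) = inv (comap e f) := by
  rw [inv, comap_ser, comap_aug, inv]

/-! ### removal of a slot: the twisted derivation `shift a` -/

/-- restriction to the sets which do not contain the slot `a` -/
def cut (a : α) : Jt α R →+* Jt α R := res fun b => b ≠ a

theorem cut_apply (a : α) (f : Jt α R) (A : Finset α) : cut a f A = if a ∈ A then 0 else f A := by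
  rw [cut, res_apply]
  by_cases h : a ∈ A
  · rw [if_pos h, if_neg (fun h' => h' a h rfl)]
  · rw [if_neg h, if_pos (fun b hb (hba : b = a) => h (hba ▸ hb))]

theorem cut_apply_mem {a : α} {A : Finset α} (h : a ∈ A) (f : Jt α R) : cut a f A = 0 := by rw [cut_apply, if_pos h]
theorem cut_apply_notMem {a : α} {A : Finset α} (h : a ∉ A) (f : Jt α R) : cut a f A = f A := by rw [cut_apply, if_neg h]
@[simp] theorem cut_apply_empty (a : α) (f : Jt α R) : cut a f ∅ = f ∅ := cut_apply_notMem (notMem_empty a) f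

theorem cut_inv (a : α) (f : Jt α R) : cut a (inv f) = inv (cut a f) := res_inv _ f

/-- `shift a f A = f (insert a A)` on the sets which do not contain `a` -/
def shift (a : α) (f : Jt α R) : Jt α R := ⟨fun A => if a ∈ A then 0 else f (insert a A)⟩

theorem shift_apply (a : α) (f : Jt α R) (A : Finset α) : shift a f A = if a ∈ A then 0 else f (insert a A) := rfl
theorem shift_apply_mem {a : α} {A : Finset α} (h : a ∈ A) (f : Jt α R) : shift a f A = 0 := by rw [shift_apply, if_pos h]
theorem shift_apply_notMem {a : α} {A : Finset α} (h : a ∉ A) (f : Jt α R) : shift a f A = f (insert a A) := by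
  rw [shift_apply, if_neg h]

@[simp] theorem shift_zero (a : α) : shift a (0 : Jt α R) = 0 := by ext A; simp [shift_apply]
theorem shift_add (a : α) (f g : Jt α R) : shift a (f + g) = shift a f + shift a g := by
  ext A; simp only [shift_apply, add_apply]; split_ifs <;> simp
theorem shift_sub (a : α) (f g : Jt α R) : shift a (f - g) = shift a f - shift a g := by
  ext A; simp only [shift_apply, sub_apply]; split_ifs <;> simp
theorem shift_smul (a : α) (r : R) (f : Jt α R) : shift a (r • f) = r • shift a f := by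
  ext A; simp only [shift_apply, smul_apply]; split_ifs <;> simp
@[simp] theorem shift_one (a : α) : shift a (1 : Jt α R) = 0 := by
  ext A; simp only [shift_apply, zero_apply]; split_ifs
  · rfl
  · exact one_apply_ne (insert_ne_empty a A)

theorem shift_sum {κ : Type} (a : α) (s : Finset κ) (F : κ → Jt α R) : shift a (∑ k ∈ s, F k) = ∑ k ∈ s, shift a (F k) := by
  classical
  induction s using Finset.induction_on with
  | empty => simp
  | insert b s hb ih => rw [Finset.sum_insert hb, Finset.sum_insert hb, shift_add, ih]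

/-- the twisted Leibniz rule -/
theorem shift_mul (a : α) (f g : Jt α R) : shift a (f * g) = shift a f * cut a g + cut a f * shift a g := by
  ext A
  by_cases ha : a ∈ A
  · rw [shift_apply_mem ha, add_apply, mul_apply, mul_apply, Finset.sum_eq_zero, Finset.sum_eq_zero, add_zero]
    · intro B _
      by_cases hB : a ∈ B
      · rw [cut_apply_mem hB, zero_mul]
      · rw [shift_apply_mem (mem_sdiff.2 ⟨ha, hB⟩), mul_zero]
    · intro B _
      by_cases hB : a ∈ B
      · rw [shift_apply_mem hB, zero_mul]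
      · rw [cut_apply_mem (mem_sdiff.2 ⟨ha, hB⟩), mul_zero]
  · rw [shift_apply_notMem ha, mul_apply, Finset.sum_powerset_insert ha, add_apply, mul_apply, mul_apply, add_comm]
    congr 1
    · refine Finset.sum_congr rfl fun B hB => ?_
      have hB' : a ∉ B := fun h => ha (mem_powerset.1 hB h)
      rw [shift_apply_notMem hB', cut_apply_notMem (fun h => ha (sdiff_subset h)), insert_sdiff_insert,
        sdiff_insert_of_notMem ha]
    · refine Finset.sum_congr rfl fun B hB => ?_
      have hB' : a ∉ B := fun h => ha (mem_powerset.1 hB h)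
      rw [cut_apply_notMem hB', shift_apply_notMem (fun h => ha (sdiff_subset h)), insert_sdiff_of_notMem _ hB']

theorem shift_pow_succ (a : α) (n : Jt α R) (k : ℕ) :
    shift a (n ^ (k + 1)) = ((k + 1 : ℕ) : R) • ((cut a n) ^ k * shift a n) := by
  induction k with
  | zero => simp
  | succ k ih =>
    rw [pow_succ, shift_mul, ih, map_pow]
    simp only [Algebra.smul_def, map_natCast]
    push_cast
    ring

/-- a set function is determined by its value at `∅` and its shifts -/
theorem eq_of_shift_eq {g g' : Jt α R} (h0 : g ∅ = g' ∅) (h : ∀ a, shift a g = shift a g') : g = g' := by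
  ext A
  induction A using Finset.induction_on with
  | empty => exact h0
  | insert a s ha _ =>
    have := congrArg (fun F : Jt α R => F s) (h a)
    simpa only [shift_apply_notMem ha] using this

/-- the twisted derivative of a power series -/
theorem shift_ser (a : α) (c : ℕ → R) {n : Jt α R} (h0 : n ∅ = 0) :
    shift a (ser c n) = ser (fun k => ((k + 1 : ℕ) : R) * c (k + 1)) (cut a n) * shift a n := by
  ext A
  by_cases ha : a ∈ A
  · rw [shift_apply_mem ha, mul_apply, Finset.sum_eq_zero]
    intro B _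
    by_cases hB : a ∈ B
    · rw [cut, ← res_ser, ← cut, cut_apply_mem hB, zero_mul]
    · rw [shift_apply_mem (mem_sdiff.2 ⟨ha, hB⟩), mul_zero]
  · have hc : (insert a A).card < A.card + 1 + 1 := by rw [card_insert_of_notMem ha]; omega
    rw [shift_apply_notMem ha, ser_apply_of_lt c h0 hc, ← shift_apply_notMem ha, shift_sum, Finset.sum_range_succ']
    have h1 : shift a (c 0 • n ^ 0) = 0 := by rw [pow_zero, shift_smul, shift_one, smul_zero]
    have h2 : ∀ k : ℕ, shift a (c (k + 1) • n ^ (k + 1))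
        = ((((k + 1 : ℕ) : R) * c (k + 1)) • (cut a n) ^ k) * shift a n := fun k => by
      rw [shift_smul, shift_pow_succ, smul_smul, smul_mul_assoc, mul_comm]
    rw [h1, add_zero]
    simp only [h2]
    rw [← Finset.sum_mul]
    refine mul_congr_at (fun B hB => ?_) fun _ _ => rfl
    rw [ser_apply_of_lt _ (by simp [h0]) (Nat.lt_succ_of_le (card_le_card hB))]

theorem shift_aug (a : α) (f : Jt α R) : shift a (aug f) = shift a f := by
  ext A
  simp only [shift_apply]
  split_ifs
  · rfl
  · exact aug_apply_ne f (insert_ne_empty a A)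

theorem cut_aug (a : α) (f : Jt α R) : cut a (aug f) = aug (cut a f) := res_aug _ f

theorem cut_ser (a : α) (c : ℕ → R) (n : Jt α R) : cut a (ser c n) = ser c (cut a n) := res_ser _ c n

/-- the twisted derivative of the inverse -/
theorem shift_inv (a : α) {f : Jt α R} (h : f ∅ = 1) :
    shift a (inv f) = - (inv (cut a f) * inv (cut a f) * shift a f) := by
  have h1 : shift a (f * inv f) = 0 := by rw [mul_inv h, shift_one]
  rw [shift_mul, cut_inv] at h1
  have h2 : inv (cut a f) * cut a f = 1 := inv_mul (by simp [h])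
  have h3 : shift a (inv f) = (inv (cut a f) * cut a f) * shift a (inv f) := by rw [h2, one_mul]
  have h4 : cut a f * shift a (inv f) = - (shift a f * inv (cut a f)) := by
    rw [eq_neg_iff_add_eq_zero, add_comm]; exact h1
  rw [h3, mul_assoc, h4]
  ring

/-! ### logarithm and exponential (real coefficients) -/

section reals

variable {f g l m : Jt α ℝ}

/-- logarithm of a symbol with constant term `1` (joint cumulants of the moments `f`) -/
noncomputable def log (f : Jt α ℝ) : Jt α ℝ := ser (fun k => if k = 0 then 0 else (-1) ^ (k + 1) / (k : ℝ)) (aug f)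

/-- exponential of a symbol (the constant term is ignored) -/
noncomputable def exp (l : Jt α ℝ) : Jt α ℝ := ser (fun k => 1 / (k.factorial : ℝ)) (aug l)

@[simp] theorem log_apply_empty (f : Jt α ℝ) : log f ∅ = 0 := by simp [log]
@[simp] theorem exp_apply_empty (l : Jt α ℝ) : exp l ∅ = 1 := by simp [exp]

theorem res_log (p : α → Prop) [DecidablePred p] (f : Jt α ℝ) : res p (log f) = log (res p f) := by
  rw [log, res_ser, res_aug, log]
theorem tw_log (x : α → ℝ) (f : Jt α ℝ) : tw x (log f) = log (tw x f) := by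
  rw [log, tw_ser, tw_aug, log]
theorem comap_log {β : Type} [DecidableEq β] (e : β ↪ α) (f : Jt α ℝ) : comap e (log f) = log (comap e f) := by
  rw [log, comap_ser, comap_aug, log]
theorem cut_log (a : α) (f : Jt α ℝ) : cut a (log f) = log (cut a f) := res_log _ f
theorem res_exp (p : α → Prop) [DecidablePred p] (l : Jt α ℝ) : res p (exp l) = exp (res p l) := by
  rw [exp, res_ser, res_aug, exp]
theorem tw_exp (x : α → ℝ) (l : Jt α ℝ) : tw x (exp l) = exp (tw x l) := by
  rw [exp, tw_ser, tw_aug, exp]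
theorem comap_exp {β : Type} [DecidableEq β] (e : β ↪ α) (l : Jt α ℝ) : comap e (exp l) = exp (comap e l) := by
  rw [exp, comap_ser, comap_aug, exp]
theorem cut_exp (a : α) (l : Jt α ℝ) : cut a (exp l) = exp (cut a l) := res_exp _ l

/-- `∂ log f = f⁻¹ ∂ f` -/
theorem shift_log (a : α) (f : Jt α ℝ) : shift a (log f) = inv (cut a f) * shift a f := by
  rw [log, shift_ser a _ (aug_apply_empty f), shift_aug, cut_aug, inv]
  congr 2
  funext k
  have hk : ((k + 1 : ℕ) : ℝ) ≠ 0 := by positivity
  rw [if_neg (Nat.succ_ne_zero k), mul_div_cancel₀ _ hk, pow_add, pow_add]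
  norm_num

/-- `∂ exp l = exp l ∂ l` -/
theorem shift_exp (a : α) (l : Jt α ℝ) : shift a (exp l) = exp (cut a l) * shift a l := by
  rw [exp, shift_ser a _ (aug_apply_empty l), shift_aug, cut_aug, exp]
  congr 2
  funext k
  have hk : ((k + 1 : ℕ) : ℝ) ≠ 0 := by positivity
  have hf : (k.factorial : ℝ) ≠ 0 := by positivity
  rw [Nat.factorial_succ]
  push_cast
  push_cast at hk
  field_simp

/-- `log (f g) = log f + log g` -/
theorem log_mul (hf : f ∅ = 1) (hg : g ∅ = 1) : log (f * g) = log f + log g := by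
  refine eq_of_shift_eq (by simp) fun a => ?_
  have h1 : inv (cut a f) * cut a f = 1 := inv_mul (by simp [hf])
  have h2 : inv (cut a g) * cut a g = 1 := inv_mul (by simp [hg])
  rw [shift_add, shift_log, shift_log, shift_log, shift_mul, map_mul,
    inv_mul_distrib (by simp [hf]) (by simp [hg])]
  calc inv (cut a f) * inv (cut a g) * (shift a f * cut a g + cut a f * shift a g)
      = inv (cut a f) * shift a f * (inv (cut a g) * cut a g) + inv (cut a g) * shift a g * (inv (cut a f) * cut a f) := by ring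
    _ = inv (cut a f) * shift a f + inv (cut a g) * shift a g := by rw [h1, h2, mul_one, mul_one]

/-- `log (exp l) = l` -/
theorem log_exp (h : l ∅ = 0) : log (exp l) = l := by
  refine eq_of_shift_eq (by simp [h]) fun a => ?_
  rw [shift_log, shift_exp, cut_exp, ← mul_assoc, inv_mul (by simp), one_mul]

/-- `exp (log f) = f` -/
theorem exp_log (h : f ∅ = 1) : exp (log f) = f := by
  have key : exp (log f) * inv f = 1 := by
    refine eq_of_shift_eq (by simp) fun a => ?_
    rw [shift_mul, shift_exp, shift_log, shift_inv a h, cut_exp, cut_log, cut_inv, shift_one]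
    ring
  calc exp (log f) = exp (log f) * (inv f * f) := by rw [inv_mul h, mul_one]
    _ = f := by rw [← mul_assoc, key, one_mul]

theorem exp_aug (l : Jt α ℝ) : exp (aug l) = exp l := by rw [exp, aug_aug, exp]

/-- `exp (l + m) = exp l exp m` -/
theorem exp_add (l m : Jt α ℝ) : exp (l + m) = exp l * exp m := by
  have h : log (exp (aug l) * exp (aug m)) = aug l + aug m := by
    rw [log_mul (by simp) (by simp), log_exp (by simp), log_exp (by simp)]
  rw [← exp_aug (l + m), aug_add, ← h, exp_log (by simp), exp_aug, exp_aug]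

theorem exp_zero : exp (0 : Jt α ℝ) = 1 := by
  have : log (1 : Jt α ℝ) = 0 := by
    have h := log_mul (f := (1 : Jt α ℝ)) (g := 1) (by simp) (by simp)
    rw [one_mul] at h
    exact left_eq_add.1 h
  rw [← this, exp_log (by simp)]

theorem log_one : log (1 : Jt α ℝ) = 0 := by rw [← exp_zero, log_exp (by simp)]

theorem exp_natCast_smul (j : ℕ) (l : Jt α ℝ) : exp ((j : ℝ) • l) = exp l ^ j := by
  induction j with
  | zero => simp [exp_zero]
  | succ j ih => rw [Nat.cast_succ, add_smul, one_smul, exp_add, ih, pow_succ]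

theorem log_inv (h : f ∅ = 1) : log (inv f) = - log f := by
  have := log_mul h (inv_apply_empty f)
  rw [mul_inv h, log_one] at this
  exact (neg_eq_of_add_eq_zero_right this.symm).symm

/-- powers are polynomials in the exponent; the coefficient of `j` is the logarithm -/
theorem pow_apply_eq (h : f ∅ = 1) (j : ℕ) (A : Finset α) :
    (f ^ j) A = ∑ k ∈ range (A.card + 1), (j : ℝ) ^ k * ((log f ^ k) A / (k.factorial : ℝ)) := by
  conv_lhs => rw [← exp_log h, ← exp_natCast_smul, exp, aug_eq_self (by simp), ser_apply]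
  refine Finset.sum_congr rfl fun k _ => ?_
  rw [smul_pow, smul_apply]
  ring

/-- LL Lemma (size increment): `[j] (Ψ^j e^{-jC}) = log Ψ - C` -/
theorem pow_mul_exp_apply_eq (h : f ∅ = 1) (hc : g ∅ = 0) (j : ℕ) (A : Finset α) :
    ((f * exp (-g)) ^ j) A = ∑ k ∈ range (A.card + 1), (j : ℝ) ^ k * (((log f - g) ^ k) A / (k.factorial : ℝ)) := by
  rw [pow_apply_eq (by simp [h]), log_mul h (by simp), log_exp (by simp [hc]), sub_eq_add_neg]

/-- moment-cumulant recursion -/
theorem apply_insert_eq (h : f ∅ = 1) {a : α} {A : Finset α} (ha : a ∉ A) :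
    f (insert a A) = ∑ B ∈ A.powerset, f B * log f (insert a (A \ B)) := by
  have h1 : cut a f * shift a (log f) = shift a f := by
    rw [shift_log, ← mul_assoc, mul_inv (by simp [h]), one_mul]
  have h2 := congrArg (fun F : Jt α ℝ => F A) h1
  simp only [shift_apply_notMem ha, mul_apply] at h2
  rw [← h2]
  refine Finset.sum_congr rfl fun B hB => ?_
  rw [cut_apply_notMem (fun hh => ha (mem_powerset.1 hB hh)), shift_apply_notMem (fun hh => ha (sdiff_subset hh))]

/-- independent groups of slots: the mixed cumulants vanish -/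
theorem log_apply_union_eq_zero (h : f ∅ = 1) {A₁ A₂ : Finset α} (hd : Disjoint A₁ A₂) (h₁ : A₁.Nonempty) (h₂ : A₂.Nonempty)
    (hF : ∀ B ⊆ A₁, ∀ B' ⊆ A₂, f (B ∪ B') = f B * f B') : log f (A₁ ∪ A₂) = 0 := by
  have key : res (· ∈ A₁ ∪ A₂) f = res (· ∈ A₁) f * res (· ∈ A₂) f := by
    ext A
    rw [mul_apply]
    by_cases hA : ∀ a ∈ A, a ∈ A₁ ∪ A₂
    · rw [res_apply, if_pos hA, Finset.sum_eq_single (A ∩ A₁)]
      · have e1 : A \ (A ∩ A₁) = A ∩ A₂ := by
          ext x
          simp only [mem_sdiff, mem_inter, not_and]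
          constructor
          · rintro ⟨hx, hx1⟩
            exact ⟨hx, (mem_union.1 (hA x hx)).resolve_left (hx1 hx)⟩
          · rintro ⟨hx, hx2⟩
            exact ⟨hx, fun _ hx1 => (disjoint_left.1 hd hx1 hx2)⟩
        have e2 : A = (A ∩ A₁) ∪ (A ∩ A₂) := by
          rw [← inter_union_distrib_left]; exact (inter_eq_left.2 hA).symm
        rw [e1, res_apply, res_apply, if_pos (fun a ha => (mem_inter.1 ha).2), if_pos (fun a ha => (mem_inter.1 ha).2),
          ← hF _ inter_subset_right _ inter_subset_right, ← e2]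
      · intro B hB hne
        by_cases hB1 : ∀ a ∈ B, a ∈ A₁
        · have : ¬ ∀ a ∈ A \ B, a ∈ A₂ := by
            intro hB2
            apply hne
            ext x
            simp only [mem_inter]
            constructor
            · intro hx; exact ⟨mem_powerset.1 hB hx, hB1 x hx⟩
            · rintro ⟨hx, hx1⟩
              by_contra hxB
              exact disjoint_left.1 hd hx1 (hB2 x (mem_sdiff.2 ⟨hx, hxB⟩))
          rw [res_apply (· ∈ A₂), if_neg this, mul_zero]
        · rw [res_apply (· ∈ A₁), if_neg hB1, zero_mul]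
      · intro hh; exact absurd (mem_powerset.2 inter_subset_left) hh
    · rw [res_apply, if_neg hA]
      symm
      refine Finset.sum_eq_zero fun B _ => ?_
      by_cases hB1 : ∀ a ∈ B, a ∈ A₁
      · have : ¬ ∀ a ∈ A \ B, a ∈ A₂ := fun hB2 => hA fun a ha =>
          if haB : a ∈ B then mem_union_left _ (hB1 a haB) else mem_union_right _ (hB2 a (mem_sdiff.2 ⟨ha, haB⟩))
        rw [res_apply (· ∈ A₂), if_neg this, mul_zero]
      · rw [res_apply (· ∈ A₁), if_neg hB1, zero_mul]
  have e : log f (A₁ ∪ A₂) = res (· ∈ A₁ ∪ A₂) (log f) (A₁ ∪ A₂) := by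
    rw [res_apply, if_pos (fun a ha => ha)]
  rw [e, res_log, key, log_mul (by simp [res_apply, h]) (by simp [res_apply, h]), add_apply, ← res_log, ← res_log,
    res_apply, res_apply, if_neg, if_neg, add_zero]
  · intro hh
    obtain ⟨x, hx⟩ := h₁
    exact disjoint_left.1 hd hx (hh x (mem_union_left _ hx))
  · intro hh
    obtain ⟨x, hx⟩ := h₂
    exact disjoint_left.1 hd (hh x (mem_union_right _ hx)) hx

/-- moment-cumulant recursion, second form -/
theorem apply_insert_eq' (h : f ∅ = 1) {a : α} {A : Finset α} (ha : a ∉ A) :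
    f (insert a A) = ∑ C ∈ A.powerset, log f (insert a C) * f (A \ C) := by
  have h1 : shift a (log f) * cut a f = shift a f := by
    rw [shift_log, mul_right_comm, inv_mul (by simp [h]), one_mul]
  have h2 := congrArg (fun F : Jt α ℝ => F A) h1
  simp only [shift_apply_notMem ha, mul_apply] at h2
  rw [← h2]
  refine Finset.sum_congr rfl fun B hB => ?_
  rw [shift_apply_notMem (fun hh => ha (mem_powerset.1 hB hh)), cut_apply_notMem (fun hh => ha (sdiff_subset hh))]

theorem log_apply_singleton (h : f ∅ = 1) (a : α) : log f {a} = f {a} := by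
  have := apply_insert_eq' h (notMem_empty a)
  simpa [h] using this.symm

theorem sum_powerset_singleton (a : α) (G : Finset α → ℝ) : ∑ B ∈ ({a} : Finset α).powerset, G B = G ∅ + G {a} := by
  rw [← insert_empty_eq a, Finset.sum_powerset_insert (notMem_empty a)]
  simp

theorem log_apply_pair (h : f ∅ = 1) {a b : α} (hab : a ≠ b) : log f {a, b} = f {a, b} - f {a} * f {b} := by
  have := apply_insert_eq' h (a := a) (A := {b}) (by simpa using hab)
  rw [sum_powerset_singleton] at this
  simp only [sdiff_empty, Finset.sdiff_self, h, mul_one, insert_empty_eq, log_apply_singleton h] at this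
  rw [this]; ring

theorem inv_apply_singleton (h : f ∅ = 1) (a : α) : inv f {a} = - f {a} := by
  have := congrArg (fun F : Jt α ℝ => F {a}) (mul_inv h)
  simp only [mul_apply] at this
  rw [sum_powerset_singleton, one_apply_ne (singleton_ne_empty a)] at this
  simp only [sdiff_empty, Finset.sdiff_self, h, one_mul, inv_apply_empty, mul_one] at this
  linarith

/-- crude bound of the powers -/
theorem abs_pow_apply_le (hf : ∀ B, |f B| ≤ 1) (k : ℕ) (A : Finset α) : |(f ^ k) A| ≤ ((2 : ℝ) ^ A.card) ^ k := by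
  induction k generalizing A with
  | zero =>
    rw [pow_zero, pow_zero, one_apply]
    split_ifs <;> simp
  | succ k ih =>
    rw [pow_succ, mul_apply]
    calc |∑ B ∈ A.powerset, (f ^ k) B * f (A \ B)| ≤ ∑ B ∈ A.powerset, |(f ^ k) B * f (A \ B)| := Finset.abs_sum_le_sum_abs _ _
      _ ≤ ∑ _B ∈ A.powerset, ((2 : ℝ) ^ A.card) ^ k := by
          refine Finset.sum_le_sum fun B hB => ?_
          rw [abs_mul]
          have h1 : |(f ^ k) B| ≤ ((2 : ℝ) ^ A.card) ^ k := (ih B).trans
            (pow_le_pow_left₀ (by positivity) (pow_le_pow_right₀ (by norm_num) (card_le_card (mem_powerset.1 hB))) k)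
          calc |(f ^ k) B| * |f (A \ B)| ≤ ((2 : ℝ) ^ A.card) ^ k * 1 :=
                mul_le_mul h1 (hf _) (abs_nonneg _) (by positivity)
            _ = _ := mul_one _
      _ = ((2 : ℝ) ^ A.card) ^ (k + 1) := by
          rw [Finset.sum_const, card_powerset, nsmul_eq_mul, pow_succ]; push_cast; ring

theorem abs_ser_apply_le (c : ℕ → ℝ) (hc : ∀ k, |c k| ≤ 1) (hf : ∀ B, |f B| ≤ 1) {n : ℕ} {A : Finset α} (hA : A.card ≤ n) :
    |ser c f A| ≤ (n + 1 : ℝ) * ((2 : ℝ) ^ n) ^ n := by
  rw [ser_apply]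
  calc |∑ k ∈ range (A.card + 1), c k * (f ^ k) A| ≤ ∑ k ∈ range (A.card + 1), |c k * (f ^ k) A| := Finset.abs_sum_le_sum_abs _ _
    _ ≤ ∑ _k ∈ range (A.card + 1), ((2 : ℝ) ^ n) ^ n := by
        refine Finset.sum_le_sum fun k hk => ?_
        have hk' : k ≤ n := by simp only [mem_range] at hk; omega
        have h2 : (1 : ℝ) ≤ (2 : ℝ) ^ n := one_le_pow₀ (by norm_num)
        rw [abs_mul]
        calc |c k| * |(f ^ k) A| ≤ 1 * ((2 : ℝ) ^ A.card) ^ k := mul_le_mul (hc k) (abs_pow_apply_le hf k A) (abs_nonneg _) zero_le_one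
          _ = ((2 : ℝ) ^ A.card) ^ k := one_mul _
          _ ≤ ((2 : ℝ) ^ n) ^ k := pow_le_pow_left₀ (by positivity) (pow_le_pow_right₀ (by norm_num) hA) k
          _ ≤ ((2 : ℝ) ^ n) ^ n := pow_le_pow_right₀ h2 hk'
    _ = ((A.card : ℝ) + 1) * ((2 : ℝ) ^ n) ^ n := by rw [Finset.sum_const, card_range, nsmul_eq_mul]; push_cast; ring
    _ ≤ (n + 1 : ℝ) * ((2 : ℝ) ^ n) ^ n := by
        refine mul_le_mul_of_nonneg_right ?_ (by positivity)
        have : (A.card : ℝ) ≤ n := by exact_mod_cast hA
        linarith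

theorem abs_aug_apply_le (hf : ∀ B, |f B| ≤ 1) (B : Finset α) : |aug f B| ≤ 1 := by
  rw [aug_apply]; split_ifs
  · simp
  · exact hf B

/-! ### derivatives in a parameter -/

section deriv

variable {I : Set ℝ} {t0 : ℝ}

theorem hasDerivWithinAt_mul {F G : ℝ → Jt α ℝ} {F' G' : Jt α ℝ}
    (hF : ∀ A, HasDerivWithinAt (fun ϑ => F ϑ A) (F' A) I t0) (hG : ∀ A, HasDerivWithinAt (fun ϑ => G ϑ A) (G' A) I t0)
    (A : Finset α) : HasDerivWithinAt (fun ϑ => (F ϑ * G ϑ) A) ((F' * G t0 + F t0 * G') A) I t0 := by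
  simp only [mul_apply, add_apply, ← Finset.sum_add_distrib]
  exact HasDerivWithinAt.fun_sum fun B _ => (hF B).mul (hG (A \ B))

theorem hasDerivWithinAt_pow {n : ℝ → Jt α ℝ} {n' : Jt α ℝ} (hn : ∀ A, HasDerivWithinAt (fun ϑ => n ϑ A) (n' A) I t0) (k : ℕ) :
    ∀ A, HasDerivWithinAt (fun ϑ => ((n ϑ) ^ (k + 1)) A) ((((k + 1 : ℕ) : ℝ) • ((n t0) ^ k * n')) A) I t0 := by
  induction k with
  | zero => intro A; simpa using hn A
  | succ k ih =>
    intro A
    have h := hasDerivWithinAt_mul ih hn A
    have e : (((k + 1 : ℕ) : ℝ) • ((n t0) ^ k * n')) * n t0 + (n t0) ^ (k + 1) * n'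
        = ((k + 1 + 1 : ℕ) : ℝ) • ((n t0) ^ (k + 1) * n') := by
      simp only [Algebra.smul_def, map_natCast]
      push_cast
      ring
    rw [e] at h
    simpa only [pow_succ _ (k + 1)] using h

theorem hasDerivWithinAt_ser (c : ℕ → ℝ) {n : ℝ → Jt α ℝ} {n' : Jt α ℝ} (h0 : ∀ ϑ, n ϑ ∅ = 0)
    (hn : ∀ A, HasDerivWithinAt (fun ϑ => n ϑ A) (n' A) I t0) (A : Finset α) :
    HasDerivWithinAt (fun ϑ => ser c (n ϑ) A) ((ser (fun k => ((k + 1 : ℕ) : ℝ) * c (k + 1)) (n t0) * n') A) I t0 := by
  have e1 : ∀ ϑ, ser c (n ϑ) A = ∑ k ∈ range (A.card + 1), c (k + 1) * ((n ϑ) ^ (k + 1)) A + c 0 * (1 : Jt α ℝ) A := fun ϑ => by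
    rw [ser_apply_of_lt c (h0 ϑ) (Nat.lt_succ_of_lt (Nat.lt_succ_self A.card)), sum_apply, Finset.sum_range_succ']
    simp only [smul_apply, pow_zero]
  have e2 : (ser (fun k => ((k + 1 : ℕ) : ℝ) * c (k + 1)) (n t0) * n') A
      = ∑ k ∈ range (A.card + 1), c (k + 1) * (((k + 1 : ℕ) : ℝ) • ((n t0) ^ k * n')) A := by
    have : (ser (fun k => ((k + 1 : ℕ) : ℝ) * c (k + 1)) (n t0) * n') A
        = ((∑ k ∈ range (A.card + 1), (((k + 1 : ℕ) : ℝ) * c (k + 1)) • (n t0) ^ k) * n') A :=
      mul_congr_at (fun B hB => ser_apply_of_lt _ (h0 t0) (Nat.lt_succ_of_le (card_le_card hB))) fun _ _ => rfl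
    rw [this, Finset.sum_mul, sum_apply]
    refine Finset.sum_congr rfl fun k _ => ?_
    rw [smul_mul_assoc, smul_apply, smul_apply]
    ring
  simp only [e1]
  rw [e2, ← add_zero (∑ k ∈ range (A.card + 1), c (k + 1) * (((k + 1 : ℕ) : ℝ) • ((n t0) ^ k * n')) A)]
  exact (HasDerivWithinAt.fun_sum fun k _ => (hasDerivWithinAt_pow hn k A).const_mul _).add (hasDerivWithinAt_const _ _ _)

theorem hasDerivWithinAt_aug {F : ℝ → Jt α ℝ} {F' : Jt α ℝ} (hF : ∀ A, HasDerivWithinAt (fun ϑ => F ϑ A) (F' A) I t0)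
    (A : Finset α) : HasDerivWithinAt (fun ϑ => aug (F ϑ) A) (aug F' A) I t0 := by
  by_cases hA : A = ∅
  · subst hA; simpa using hasDerivWithinAt_const t0 I (0 : ℝ)
  · simpa only [aug_apply_ne _ hA] using hF A

/-- `D log F = F⁻¹ DF` -/
theorem hasDerivWithinAt_log {F : ℝ → Jt α ℝ} {F' : Jt α ℝ} (hF : ∀ A, HasDerivWithinAt (fun ϑ => F ϑ A) (F' A) I t0)
    (A : Finset α) : HasDerivWithinAt (fun ϑ => log (F ϑ) A) ((inv (F t0) * aug F') A) I t0 := by
  have h := hasDerivWithinAt_ser (fun k => if k = 0 then 0 else (-1) ^ (k + 1) / (k : ℝ)) (n := fun ϑ => aug (F ϑ))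
    (fun ϑ => aug_apply_empty _) (hasDerivWithinAt_aug hF) A
  have e : (fun k : ℕ => ((k + 1 : ℕ) : ℝ) * (if k + 1 = 0 then 0 else (-1) ^ (k + 1 + 1) / ((k + 1 : ℕ) : ℝ)))
      = fun k : ℕ => (-1 : ℝ) ^ k := by
    funext k
    have hk : ((k + 1 : ℕ) : ℝ) ≠ 0 := by positivity
    rw [if_neg (Nat.succ_ne_zero k), mul_div_cancel₀ _ hk, pow_add, pow_add]
    norm_num
  rw [e] at h
  exact h

end deriv

end reals

end Jt

/-! ### the bridge with `Defs/Jet.lean` (`JtFn = Finset ℕ → ℝ`) -/

theorem jtr_mul (F G : JtFn) : jtMul F G = (Jt.mk F * Jt.mk G).c := rfl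

theorem jtr_one : jtOne = (1 : Jt ℕ ℝ).c := rfl

theorem jtr_add (F G : JtFn) : F + G = (Jt.mk F + Jt.mk G).c := rfl

theorem jtr_smul (r : ℝ) (F : JtFn) : r • F = (r • Jt.mk F).c := rfl

theorem jtr_pow (F : JtFn) (k : ℕ) : jtPow F k = ((Jt.mk F) ^ k).c := by
  induction k with
  | zero => rw [pow_zero]; rfl
  | succ k ih => rw [pow_succ', jtPow, ih]; rfl

theorem jtr_aug (F : JtFn) : jtAug F = (Jt.aug (Jt.mk F)).c := rfl

theorem jtr_inv (F : JtFn) : jtInv F = (Jt.inv (Jt.mk F)).c := by
  funext A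
  simp only [jtInv, jtr_pow, jtr_aug]
  rfl

theorem jtr_der (i : ℕ) (F : JtFn) : jtDer i F = (Jt.shift i (Jt.mk F)).c := rfl

theorem jtr_log (F : JtFn) : jtLog F = (Jt.log (Jt.mk F)).c := by
  funext A
  show _ = Jt.log (Jt.mk F) A
  rw [Jt.log, Jt.ser_apply, jtLog]
  simp only [jtr_pow, jtr_aug]
  rw [← Finset.sum_subset (s₁ := Finset.Icc 1 A.card) (s₂ := Finset.range (A.card + 1))]
  · refine Finset.sum_congr rfl fun k hk => ?_
    rw [if_neg (by have := (Finset.mem_Icc.1 hk).1; omega)]
  · intro k hk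
    have := Finset.mem_Icc.1 hk
    exact Finset.mem_range.2 (by omega)
  · intro k hk hk'
    have h0 : k = 0 := by
      by_contra h
      exact hk' (Finset.mem_Icc.2 ⟨by omega, by have := Finset.mem_range.1 hk; omega⟩)
    rw [if_pos h0, zero_mul]

theorem jtr_exp (L : JtFn) : jtExp L = (Jt.exp (Jt.mk L)).c := by
  funext A
  show _ = Jt.exp (Jt.mk L) A
  rw [Jt.exp, Jt.ser_apply, jtExp]
  simp only [jtr_pow, jtr_aug]
  refine Finset.sum_congr rfl fun k _ => ?_
  rw [one_div, mul_comm, div_eq_mul_inv]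

/-! ### the leaves JA8-JA20 of `LL/Jet/Alg.lean` -/

theorem jtr_der_mul (i : ℕ) (F G : JtFn) (A : Finset ℕ) (hi : i ∉ A) :
    jtDer i (jtMul F G) A = jtMul (jtDer i F) G A + jtMul F (jtDer i G) A := by
  have h := congrArg (fun X : Jt ℕ ℝ => X A) (Jt.shift_mul i (Jt.mk F) (Jt.mk G))
  have h1 : (Jt.shift i (Jt.mk F) * Jt.cut i (Jt.mk G)) A = (Jt.shift i (Jt.mk F) * Jt.mk G) A :=
    Jt.mul_congr_at (fun _ _ => rfl) fun B hB => Jt.cut_apply_notMem (fun hh => hi (hB hh)) _
  have h2 : (Jt.cut i (Jt.mk F) * Jt.shift i (Jt.mk G)) A = (Jt.mk F * Jt.shift i (Jt.mk G)) A :=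
    Jt.mul_congr_at (fun B hB => Jt.cut_apply_notMem (fun hh => hi (hB hh)) _) fun _ _ => rfl
  simp only [Jt.add_apply, h1, h2] at h
  exact h

theorem jtr_ext_der (F G : JtFn) (h0 : F ∅ = G ∅) (h : ∀ i, jtDer i F = jtDer i G) : F = G :=
  congrArg Jt.c (Jt.eq_of_shift_eq (g := Jt.mk F) (g' := Jt.mk G) h0 fun i => Jt.ext fun A => congrFun (h i) A)

theorem jtr_der_log (i : ℕ) (F : JtFn) (A : Finset ℕ) (hi : i ∉ A) :
    jtDer i (jtLog F) A = jtMul (jtInv F) (jtDer i F) A := by
  have h := congrArg (fun X : Jt ℕ ℝ => X A) (Jt.shift_log i (Jt.mk F))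
  have h1 : (Jt.inv (Jt.cut i (Jt.mk F)) * Jt.shift i (Jt.mk F)) A = (Jt.inv (Jt.mk F) * Jt.shift i (Jt.mk F)) A := by
    rw [← Jt.cut_inv]
    exact Jt.mul_congr_at (fun B hB => Jt.cut_apply_notMem (fun hh => hi (hB hh)) _) fun _ _ => rfl
  rw [jtr_log, jtr_inv]
  exact h.trans h1

theorem jtr_log_deriv (F : JtFn) (h : F ∅ = 1) (A : Finset ℕ) (i : ℕ) (hi : i ∈ A) :
    F A = ∑ B ∈ A.powerset.filter (fun B => i ∈ B), jtLog F B * F (A \ B) := by
  have hn : i ∉ A.erase i := Finset.notMem_erase i A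
  have h1 := Jt.apply_insert_eq' (f := Jt.mk F) h hn
  rw [Finset.insert_erase hi] at h1
  rw [jtr_log, Finset.sum_filter]
  conv_rhs => rw [← Finset.insert_erase hi, Finset.sum_powerset_insert hn]
  rw [Finset.sum_eq_zero, zero_add]
  · refine h1.trans (Finset.sum_congr rfl fun C hC => ?_)
    rw [if_pos (Finset.mem_insert_self i C), Finset.insert_sdiff_insert, Finset.sdiff_insert_of_notMem hn]
  · intro C hC
    rw [if_neg (fun hh => hn (Finset.mem_powerset.1 hC hh))]

theorem jtr_log_mul (F G : JtFn) (hF : F ∅ = 1) (hG : G ∅ = 1) : jtLog (jtMul F G) = jtLog F + jtLog G := by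
  rw [jtr_log, jtr_log, jtr_log, jtr_mul]
  exact congrArg Jt.c (Jt.log_mul (f := Jt.mk F) (g := Jt.mk G) hF hG)

theorem jtr_exp_log (F : JtFn) (h : F ∅ = 1) : jtExp (jtLog F) = F := by
  rw [jtr_exp, jtr_log]
  exact congrArg Jt.c (Jt.exp_log (f := Jt.mk F) h)

theorem jtr_log_exp (L : JtFn) (h : L ∅ = 0) : jtLog (jtExp L) = L := by
  rw [jtr_log, jtr_exp]
  exact congrArg Jt.c (Jt.log_exp (l := Jt.mk L) h)

theorem jtr_pow_eq (F : JtFn) (h : F ∅ = 1) (j : ℕ) (A : Finset ℕ) :
    jtPow F j A = ∑ k ∈ Finset.range (A.card + 1), (j : ℝ) ^ k * (jtPow (jtLog F) k A / (k.factorial : ℝ)) := by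
  simp only [jtr_pow, jtr_log]
  exact Jt.pow_apply_eq (f := Jt.mk F) h j A

theorem jtr_log_indep (F : JtFn) (h : F ∅ = 1) (A₁ A₂ : Finset ℕ) (hd : Disjoint A₁ A₂) (h₁ : A₁.Nonempty) (h₂ : A₂.Nonempty)
    (hF : ∀ B ⊆ A₁, ∀ B' ⊆ A₂, F (B ∪ B') = F B * F B') : jtLog F (A₁ ∪ A₂) = 0 := by
  rw [jtr_log]
  exact Jt.log_apply_union_eq_zero (f := Jt.mk F) h hd h₁ h₂ hF

theorem jtr_bounds (n : ℕ) : ∃ C : ℝ, ∀ (F : JtFn) (A : Finset ℕ), (∀ B, |F B| ≤ 1) → A.card ≤ n →
    |jtInv F A| ≤ C ∧ |jtLog F A| ≤ C := by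
  refine ⟨(n + 1 : ℝ) * ((2 : ℝ) ^ n) ^ n, fun F A hF hA => ?_⟩
  rw [jtr_inv, jtr_log]
  constructor
  · exact Jt.abs_ser_apply_le _ (fun k => by simp) (Jt.abs_aug_apply_le (f := Jt.mk F) hF) hA
  · refine Jt.abs_ser_apply_le _ (fun k => ?_) (Jt.abs_aug_apply_le (f := Jt.mk F) hF) hA
    split_ifs with hk
    · simp
    · rw [abs_div, abs_pow, abs_neg, abs_one, one_pow, Nat.abs_cast]
      have : (1 : ℝ) ≤ k := by exact_mod_cast Nat.one_le_iff_ne_zero.2 hk
      exact (div_le_one (by linarith)).2 this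

theorem jtr_local (F G : JtFn) (A : Finset ℕ) (h : ∀ B ⊆ A, F B = G B) :
    jtInv F A = jtInv G A ∧ jtLog F A = jtLog G A := by
  have key : Jt.res (· ∈ A) (Jt.mk F) = Jt.res (· ∈ A) (Jt.mk G) := by
    ext B
    rw [Jt.res_apply, Jt.res_apply]
    split_ifs with hB
    · exact h B hB
    · rfl
  have e : ∀ X : Jt ℕ ℝ, X A = Jt.res (· ∈ A) X A := fun X => by rw [Jt.res_apply, if_pos (fun a ha => ha)]
  rw [jtr_inv, jtr_inv, jtr_log, jtr_log]
  constructor
  · show Jt.inv (Jt.mk F) A = Jt.inv (Jt.mk G) A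
    rw [e, e (Jt.inv (Jt.mk G)), Jt.res_inv, Jt.res_inv, key]
  · show Jt.log (Jt.mk F) A = Jt.log (Jt.mk G) A
    rw [e, e (Jt.log (Jt.mk G)), Jt.res_log, Jt.res_log, key]

theorem jtr_map (F : JtFn) (e : ℕ ↪ ℕ) (A : Finset ℕ) :
    jtInv (fun B => F (B.map e)) A = jtInv F (A.map e) ∧ jtLog (fun B => F (B.map e)) A = jtLog F (A.map e) := by
  rw [jtr_inv, jtr_inv, jtr_log, jtr_log]
  exact ⟨(congrArg (fun X : Jt ℕ ℝ => X A) (Jt.comap_inv e (Jt.mk F))).symm,
    (congrArg (fun X : Jt ℕ ℝ => X A) (Jt.comap_log e (Jt.mk F))).symm⟩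

theorem jtr_log_small (F : JtFn) (h : F ∅ = 1) (i j : ℕ) (hij : i ≠ j) :
    jtLog F {i} = F {i} ∧ jtLog F {i, j} = F {i, j} - F {i} * F {j} ∧ jtInv F {i} = - F {i} := by
  rw [jtr_log, jtr_inv]
  exact ⟨Jt.log_apply_singleton (f := Jt.mk F) h i, Jt.log_apply_pair (f := Jt.mk F) h hij,
    Jt.inv_apply_singleton (f := Jt.mk F) h i⟩

end Claimed.Agent.R286
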