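import Claimed.Agent.R286.Defs.Jet
import Claimed.Agent.R286.LL.Jet.Ring

/-!
# Row 286, LL Section 2: ALGEBRA OF SET FUNCTIONS (paper free, Mathlib only)

The commutative ring of symbols at a fixed topology (`Defs/Jet.lean`): subset convolution `jtMul`, powers, inverse, logarithm (cumulants),
exponential, derivations `jtDer i`.
Used by (A7) (quotient `N/Ψ`), (A9), the size increment (`[j] (Ψ^j e^{-jC}) = log Ψ - C`), (E1).

ROUTE (no partitions): ring laws JA1-JA5; nilpotency JA6; geometric series JA7; `jtDer i` satisfies the Leibniz rule at the sets `A ∌ i` JA8;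
a symbol is determined by its constant term and its derivatives JA9; `∂ log F = F⁻¹ ∂F` JA10; everything else by JA9 + induction on `|A|`.

OWNER of the file: helper136 (architect).  Every `sorry` is an independent leaf; owners in the docstrings.
-/

set_option autoImplicit false

namespace Claimed.Agent.R286

open scoped BigOperators Nat

/-- leaf JA1 (267) -/
theorem jt_mul_comm (F G : JtFn) : jtMul F G = jtMul G F := by
  funext A
  unfold jtMul
  refine Finset.sum_nbij' (fun B => A \ B) (fun B => A \ B) ?_ ?_ ?_ ?_ ?_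
  · intro B _; exact Finset.mem_powerset.2 Finset.sdiff_subset
  · intro B _; exact Finset.mem_powerset.2 Finset.sdiff_subset
  · intro B hB; exact Finset.sdiff_sdiff_eq_self (Finset.mem_powerset.1 hB)
  · intro B hB; exact Finset.sdiff_sdiff_eq_self (Finset.mem_powerset.1 hB)
  · intro B hB
    rw [Finset.sdiff_sdiff_eq_self (Finset.mem_powerset.1 hB), mul_comm]

/-- leaf JA2 (267) -/
theorem jt_mul_assoc (F G H : JtFn) : jtMul (jtMul F G) H = jtMul F (jtMul G H) := by
  funext A
  unfold jtMul
  simp only [Finset.sum_mul, Finset.mul_sum]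
  rw [Finset.sum_sigma', Finset.sum_sigma']
  refine Finset.sum_bij' (fun x _ => ⟨x.2, x.1 \ x.2⟩) (fun x _ => ⟨x.1 ∪ x.2, x.1⟩) ?_ ?_ ?_ ?_ ?_
  · rintro ⟨B, C⟩ h
    simp only [Finset.mem_sigma, Finset.mem_powerset] at h ⊢
    exact ⟨h.2.trans h.1, Finset.sdiff_subset_sdiff h.1 le_rfl⟩
  · rintro ⟨C, D⟩ h
    simp only [Finset.mem_sigma, Finset.mem_powerset] at h ⊢
    exact ⟨Finset.union_subset h.1 (h.2.trans Finset.sdiff_subset), Finset.subset_union_left⟩
  · rintro ⟨B, C⟩ h
    simp only [Finset.mem_sigma, Finset.mem_powerset] at h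
    simp only [Finset.union_sdiff_of_subset h.2]
  · rintro ⟨C, D⟩ h
    simp only [Finset.mem_sigma, Finset.mem_powerset] at h
    have hd : Disjoint D C := Finset.disjoint_of_subset_left h.2 Finset.sdiff_disjoint
    simp only [Finset.union_sdiff_cancel_left hd.symm]
  · rintro ⟨B, C⟩ h
    simp only [Finset.mem_sigma, Finset.mem_powerset] at h
    have e : (A \ C) \ (B \ C) = A \ B := by
      ext y
      simp only [Finset.mem_sdiff]
      constructor
      · rintro ⟨⟨h1, h2⟩, h3⟩
        exact ⟨h1, fun hb => h3 ⟨hb, h2⟩⟩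
      · rintro ⟨h1, h2⟩
        exact ⟨⟨h1, fun hc => h2 (h.2 hc)⟩, fun hb => h2 hb.1⟩
    simp only [e, mul_assoc]

/-- leaf JA3 (267) -/
theorem jt_one_mul (F : JtFn) : jtMul jtOne F = F := by
  funext A
  unfold jtMul jtOne
  rw [Finset.sum_eq_single ∅]
  · simp
  · intro B _ hB; rw [if_neg hB, zero_mul]
  · intro h; exact absurd (Finset.empty_mem_powerset A) h

/-- leaf JA4 (267): bilinearity -/
theorem jt_mul_add (F G H : JtFn) : jtMul F (G + H) = jtMul F G + jtMul F H := by
  funext A
  simp only [jtMul, Pi.add_apply, mul_add, Finset.sum_add_distrib]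

/-- leaf JA5 (267) -/
theorem jt_mul_smul (c : ℝ) (F G : JtFn) : jtMul F (c • G) = c • jtMul F G := by
  funext A
  simp only [jtMul, Pi.smul_apply, smul_eq_mul, Finset.mul_sum]
  exact Finset.sum_congr rfl fun B _ => by ring

/-- leaf JA6 (269): nilpotency of the augmentation ideal -/
theorem jt_pow_nil (F : JtFn) (h : F ∅ = 0) (k : ℕ) (A : Finset ℕ) (hk : A.card < k) : jtPow F k A = 0 := by
  induction k generalizing A with
  | zero => exact absurd hk (Nat.not_lt_zero _)
  | succ k ih =>
    show jtMul F (jtPow F k) A = 0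
    unfold jtMul
    refine Finset.sum_eq_zero fun B hB => ?_
    rcases Finset.eq_empty_or_nonempty B with rfl | hne
    · rw [h, zero_mul]
    · have hBA : B ⊆ A := Finset.mem_powerset.1 hB
      have h1 : (A \ B).card < A.card := by
        refine Finset.card_lt_card ⟨Finset.sdiff_subset, fun hsub => ?_⟩
        obtain ⟨b, hb⟩ := hne
        exact (Finset.mem_sdiff.1 (hsub (hBA hb))).2 hb
      rw [ih (A \ B) (by omega), mul_zero]

/-- leaf JA7 (269): the inverse -/
theorem jt_mul_inv (F : JtFn) (h : F ∅ = 1) : jtMul F (jtInv F) = jtOne := by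
  have h0 : jtAug F ∅ = 0 := by simp [jtAug]
  -- `F * G = G + f * G`
  have hsplit : ∀ (G : JtFn) (A : Finset ℕ), jtMul F G A = G A + jtMul (jtAug F) G A := by
    intro G A
    unfold jtMul
    have e : ∀ B ∈ A.powerset, F B * G (A \ B) = (if B = ∅ then G A else 0) + jtAug F B * G (A \ B) := by
      intro B _
      by_cases hB : B = ∅
      · subst hB
        simp [jtAug, h]
      · simp [jtAug, hB]
    rw [Finset.sum_congr rfl e, Finset.sum_add_distrib, Finset.sum_ite_eq' ]
    simp
  funext A
  -- extend the range of the geometric series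
  have hext : ∀ B ∈ A.powerset, jtInv F (A \ B) =
      ∑ k ∈ Finset.range (A.card + 1), (-1 : ℝ) ^ k * jtPow (jtAug F) k (A \ B) := by
    intro B _
    unfold jtInv
    have hle : (A \ B).card + 1 ≤ A.card + 1 := Nat.succ_le_succ (Finset.card_le_card Finset.sdiff_subset)
    refine Finset.sum_subset (Finset.range_subset_range.2 hle) fun k _ hk => ?_
    rw [jt_pow_nil _ h0 k _ (by simpa [Nat.lt_succ_iff, not_le] using hk), mul_zero]
  have h1 : jtMul F (jtInv F) A =
      ∑ k ∈ Finset.range (A.card + 1), (-1 : ℝ) ^ k * jtMul F (jtPow (jtAug F) k) A := by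
    unfold jtMul
    rw [Finset.sum_congr rfl fun B hB => by rw [hext B hB, Finset.mul_sum]]
    rw [Finset.sum_comm]
    refine Finset.sum_congr rfl fun k _ => ?_
    rw [Finset.mul_sum]
    refine Finset.sum_congr rfl fun B _ => by ring
  have h2 : ∀ n : ℕ, ∑ k ∈ Finset.range (n + 1), (-1 : ℝ) ^ k * jtMul F (jtPow (jtAug F) k) A =
      jtOne A + (-1 : ℝ) ^ n * jtPow (jtAug F) (n + 1) A := by
    intro n
    induction n with
    | zero =>
      rw [Finset.sum_range_one, hsplit]
      simp [jtPow]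
    | succ n ih =>
      rw [Finset.sum_range_succ, ih, hsplit]
      have : jtMul (jtAug F) (jtPow (jtAug F) (n + 1)) A = jtPow (jtAug F) (n + 1 + 1) A := rfl
      rw [this]
      ring
  rw [h1, h2, jt_pow_nil _ h0 _ _ (Nat.lt_succ_self _), mul_zero, add_zero]

/-- leaf JA8 (275): Leibniz rule, AT THE SETS WHICH DO NOT CONTAIN `i` (the variables are nilpotent: it is false at the others) -/
theorem jt_der_mul (i : ℕ) (F G : JtFn) (A : Finset ℕ) (hi : i ∉ A) :
    jtDer i (jtMul F G) A = jtMul (jtDer i F) G A + jtMul F (jtDer i G) A := by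
  exact jtr_der_mul i F G A hi

/-- leaf JA9 (275): a symbol is determined by its constant term and its derivatives -/
theorem jt_ext_der (F G : JtFn) (h0 : F ∅ = G ∅) (h : ∀ i, jtDer i F = jtDer i G) : F = G := by
  exact jtr_ext_der F G h0 h

/-- leaf JA10 (277): logarithmic derivative, at the sets which do not contain `i` -/
theorem jt_der_log (i : ℕ) (F : JtFn) (h : F ∅ = 1) (A : Finset ℕ) (hi : i ∉ A) :
    jtDer i (jtLog F) A = jtMul (jtInv F) (jtDer i F) A := by
  exact jtr_der_log i F A hi

/-- leaf JA11 (277): `∂_i F = (∂_i log F) F`, written out -/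
theorem jt_log_deriv (F : JtFn) (h : F ∅ = 1) (A : Finset ℕ) (i : ℕ) (hi : i ∈ A) :
    F A = ∑ B ∈ A.powerset.filter (fun B => i ∈ B), jtLog F B * F (A \ B) := by
  exact jtr_log_deriv F h A i hi

/-- leaf JA12 (277): `log (F G) = log F + log G` -/
theorem jt_log_mul (F G : JtFn) (hF : F ∅ = 1) (hG : G ∅ = 1) : jtLog (jtMul F G) = jtLog F + jtLog G := by
  exact jtr_log_mul F G hF hG

/-- leaf JA13 (281): `exp (log F) = F` -/
theorem jt_exp_log (F : JtFn) (h : F ∅ = 1) : jtExp (jtLog F) = F := by
  exact jtr_exp_log F h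

/-- leaf JA14 (281): `log (exp L) = L` -/
theorem jt_log_exp (L : JtFn) (h : L ∅ = 0) : jtLog (jtExp L) = L := by
  exact jtr_log_exp L h

/-- leaf JA15 (281): powers are polynomials in the exponent; the coefficient of `j` is the logarithm -/
theorem jt_pow_eq (F : JtFn) (h : F ∅ = 1) (j : ℕ) (A : Finset ℕ) :
    jtPow F j A = ∑ k ∈ Finset.range (A.card + 1), (j : ℝ) ^ k * (jtPow (jtLog F) k A / (k ! : ℝ)) := by
  exact jtr_pow_eq F h j A

/-- leaf JA16 (115): independent groups of pairs: the mixed cumulants vanish -/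
theorem jt_log_indep (F : JtFn) (h : F ∅ = 1) (A₁ A₂ : Finset ℕ) (hd : Disjoint A₁ A₂) (h₁ : A₁.Nonempty) (h₂ : A₂.Nonempty)
    (hF : ∀ B ⊆ A₁, ∀ B' ⊆ A₂, F (B ∪ B') = F B * F B') : jtLog F (A₁ ∪ A₂) = 0 := by
  exact jtr_log_indep F h A₁ A₂ hd h₁ h₂ hF

/-- leaf JA17 (115): crude bounds depending on the cardinality only -/
theorem jt_bounds (n : ℕ) : ∃ C : ℝ, ∀ (F : JtFn) (A : Finset ℕ), (∀ B, |F B| ≤ 1) → A.card ≤ n →
    |jtInv F A| ≤ C ∧ |jtLog F A| ≤ C := by
  exact jtr_bounds n

/-- leaf JA18 (121): locality: the value at `A` depends on the values on the subsets of `A` only -/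
theorem jt_local (F G : JtFn) (A : Finset ℕ) (h : ∀ B ⊆ A, F B = G B) :
    jtInv F A = jtInv G A ∧ jtLog F A = jtLog G A := by
  exact jtr_local F G A h

/-- leaf JA19 (121): equivariance under an injective renumbering of the pairs -/
theorem jt_map (F : JtFn) (e : ℕ ↪ ℕ) (A : Finset ℕ) :
    jtInv (fun B => F (B.map e)) A = jtInv F (A.map e) ∧ jtLog (fun B => F (B.map e)) A = jtLog F (A.map e) := by
  exact jtr_map F e A

/-- leaf JA20 (121): the first cumulants -/
theorem jt_log_small (F : JtFn) (h : F ∅ = 1) (i j : ℕ) (hij : i ≠ j) :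
    jtLog F {i} = F {i} ∧ jtLog F {i, j} = F {i, j} - F {i} * F {j} ∧
      jtInv F {i} = - F {i} := by
  exact jtr_log_small F h i j hij

end Claimed.Agent.R286
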